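import Mathlib

/-!
# Clamps of a slowly varying background (P159, T1, part B3 / S3)

`cl L d a f m z` = `f z` clamped to `[a - φ z, a + φ z]` with `φ z = max 0 (m - L d z)`;
here `a = f x0` and `d` is the distance to `x0`.
-/

namespace Vale.Agent.P159.TM.H316

open Set

variable {V : Type*}

/-- The width `φ` of the clamp at a point at distance `s`. -/
noncomputable def wd (L m s : ℝ) : ℝ := max 0 (m - L * s)

/-- The clamped function. -/
noncomputable def cl (L : ℝ) (d : V → ℝ) (a : ℝ) (f : V → ℝ) (m : ℝ) (z : V) : ℝ :=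
  max (a - wd L m (d z)) (min (f z) (a + wd L m (d z)))

lemma wd_nonneg (L m s : ℝ) : 0 ≤ wd L m s := le_max_left _ _

lemma wd_le {L m s : ℝ} (hL : 0 ≤ L) (hs : 0 ≤ s) (hm : 0 ≤ m) : wd L m s ≤ m := by
  unfold wd
  exact max_le hm (by nlinarith [mul_nonneg hL hs])

lemma wd_eq_zero {L m s : ℝ} (h : m ≤ L * s) : wd L m s = 0 := by
  unfold wd
  exact max_eq_left (by linarith)

lemma wd_eq {L m s : ℝ} (h : L * s ≤ m) : wd L m s = m - L * s := by
  unfold wd
  exact max_eq_right (by linarith)

lemma wd_mono {L m m' s : ℝ} (h : m ≤ m') : wd L m s ≤ wd L m' s := by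
  unfold wd
  exact max_le_max le_rfl (by linarith)

lemma abs_wd_sub_m (L m m' s : ℝ) : |wd L m s - wd L m' s| ≤ |m - m'| := by
  unfold wd
  have h := abs_max_sub_max_le_abs (m - L * s) (m' - L * s) 0
  rw [max_comm 0 (m - L * s), max_comm 0 (m' - L * s)]
  refine h.trans (le_of_eq ?_)
  congr 1
  ring

lemma abs_wd_sub_s {L : ℝ} (hL : 0 ≤ L) (m s s' : ℝ) : |wd L m s - wd L m s'| ≤ L * |s - s'| := by
  unfold wd
  have h := abs_max_sub_max_le_abs (m - L * s) (m - L * s') 0
  rw [max_comm 0 (m - L * s), max_comm 0 (m - L * s')]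
  refine h.trans (le_of_eq ?_)
  have : m - L * s - (m - L * s') = -(L * (s - s')) := by ring
  rw [this, abs_neg, abs_mul, abs_of_nonneg hL]

/-- Clamping as a function of three numbers is `1`-Lipschitz in the sup norm. -/
lemma abs_clamp_sub {w w' u u' e : ℝ} {a : ℝ} (hw : |w - w'| ≤ e) (hu : |u - u'| ≤ e) :
    |max (a - w) (min u (a + w)) - max (a - w') (min u' (a + w'))| ≤ e := by
  have h1 : |(a - w) - (a - w')| ≤ e := by
    have : (a - w) - (a - w') = -(w - w') := by ring
    rw [this, abs_neg]; exact hw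
  have h2 : |min u (a + w) - min u' (a + w')| ≤ e := by
    have h := abs_min_sub_min_le_max u (a + w) u' (a + w')
    refine h.trans (max_le hu ?_)
    have : (a + w) - (a + w') = w - w' := by ring
    rw [this]; exact hw
  exact (abs_max_sub_max_le_max _ _ _ _).trans (max_le h1 h2)

/-! ### (K1) slope -/

/-- (K1) the clamp keeps the slope bound `L` on every pair at `d`-distance `≤ 1`. -/
lemma cl_slope {L : ℝ} (hL : 0 ≤ L) {d : V → ℝ} {a : ℝ} {f : V → ℝ} (m : ℝ) {z z' : V}
    (hd : |d z - d z'| ≤ 1) (hf : |f z - f z'| ≤ L) :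
    |cl L d a f m z - cl L d a f m z'| ≤ L := by
  unfold cl
  refine abs_clamp_sub ?_ hf
  refine (abs_wd_sub_s hL m _ _).trans ?_
  calc L * |d z - d z'| ≤ L * 1 := mul_le_mul_of_nonneg_left hd hL
    _ = L := mul_one L

/-- The same with a real distance factor. -/
lemma cl_slope' {L D : ℝ} (hL : 0 ≤ L) {d : V → ℝ} {a : ℝ} {f : V → ℝ} (m : ℝ) {z z' : V}
    (hd : |d z - d z'| ≤ D) (hf : |f z - f z'| ≤ L * D) :
    |cl L d a f m z - cl L d a f m z'| ≤ L * D := by
  unfold cl
  refine abs_clamp_sub ?_ hf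
  exact (abs_wd_sub_s hL m _ _).trans (mul_le_mul_of_nonneg_left hd hL)

/-! ### (K2), (K3): where the clamp does nothing / everything -/

/-- (K2) near `x0` nothing is changed. -/
lemma cl_eq_self {L : ℝ} {d : V → ℝ} {a : ℝ} {f : V → ℝ} {m : ℝ} {z : V}
    (hf : |f z - a| ≤ L * d z) (h : 2 * L * d z ≤ m) : cl L d a f m z = f z := by
  unfold cl
  have h0 : L * d z ≤ m - L * d z := by linarith
  have h1 : L * d z ≤ wd L m (d z) := h0.trans (le_max_right _ _)
  have h2 := abs_le.1 (hf.trans h1)
  rw [min_eq_left (by linarith [h2.2]), max_eq_right (by linarith [h2.1])]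

/-- (K3) far from `x0` the clamp is constant. -/
lemma cl_eq_const {L : ℝ} {d : V → ℝ} {a : ℝ} {f : V → ℝ} {m : ℝ} {z : V}
    (h : m ≤ L * d z) : cl L d a f m z = a := by
  unfold cl
  rw [wd_eq_zero h]
  rcases le_total (f z) a with h1 | h1
  · rw [min_eq_left (by linarith), max_eq_left (by linarith)]
    ring
  · rw [min_eq_right (by linarith), max_eq_left (by linarith)]
    ring

/-! ### (K4) dependence on `m` -/

/-- (K4) `m ↦ cl m z` is `1`-Lipschitz. -/
lemma abs_cl_sub_m (L : ℝ) (d : V → ℝ) (a : ℝ) (f : V → ℝ) (m m' : ℝ) (z : V) :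
    |cl L d a f m z - cl L d a f m' z| ≤ |m - m'| := by
  unfold cl
  refine abs_clamp_sub (abs_wd_sub_m L m m' _) ?_
  simp

/-- (K4) `m ↦ cl m z` is constant on `[m', m]` unless `m' < 2 L d z` and `L d z < m`. -/
lemma cl_eq_cl_of_out {L : ℝ} {d : V → ℝ} {a : ℝ} {f : V → ℝ} {m m' : ℝ} {z : V}
    (hf : |f z - a| ≤ L * d z) (hmm : m' ≤ m) (h : 2 * L * d z ≤ m' ∨ m ≤ L * d z) :
    cl L d a f m z = cl L d a f m' z := by
  rcases h with h | h
  · rw [cl_eq_self hf (h.trans hmm), cl_eq_self hf h]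
  · rw [cl_eq_const h, cl_eq_const (hmm.trans h)]

/-- The width of the clamp is continuous in `m`. -/
lemma continuous_cl_m (L : ℝ) (d : V → ℝ) (a : ℝ) (f : V → ℝ) (z : V) :
    Continuous fun m => cl L d a f m z := by
  unfold cl wd
  fun_prop

lemma lipschitzWith_cl_m (L : ℝ) (d : V → ℝ) (a : ℝ) (f : V → ℝ) (z : V) :
    LipschitzWith 1 fun m => cl L d a f m z := by
  refine LipschitzWith.of_dist_le_mul fun m m' => ?_
  rw [Real.dist_eq, Real.dist_eq]
  simpa using abs_cl_sub_m L d a f m m' z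

/-- Explicit value: with `u = f z - a`, `w = wd L m (d z)`: `cl = a + u` if `|u| ≤ w`,
`a + w` if `w ≤ u`, `a - w` if `u ≤ -w`. -/
lemma cl_of_abs_le {L : ℝ} {d : V → ℝ} {a : ℝ} {f : V → ℝ} {m : ℝ} {z : V}
    (h : |f z - a| ≤ wd L m (d z)) : cl L d a f m z = f z := by
  unfold cl
  have h2 := abs_le.1 h
  rw [min_eq_left (by linarith [h2.2]), max_eq_right (by linarith [h2.1])]

lemma cl_of_le_sub {L : ℝ} {d : V → ℝ} {a : ℝ} {f : V → ℝ} {m : ℝ} {z : V}
    (h : wd L m (d z) ≤ f z - a) : cl L d a f m z = a + wd L m (d z) := by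
  unfold cl
  have h0 := wd_nonneg L m (d z)
  rw [min_eq_right (by linarith), max_eq_right (by linarith)]

lemma cl_of_sub_le {L : ℝ} {d : V → ℝ} {a : ℝ} {f : V → ℝ} {m : ℝ} {z : V}
    (h : f z - a ≤ - wd L m (d z)) : cl L d a f m z = a - wd L m (d z) := by
  unfold cl
  have h0 := wd_nonneg L m (d z)
  rw [min_eq_left (by linarith), max_eq_left (by linarith)]

/-- The sign with which the clamp moves: derivative of `m ↦ cl m z`. -/
noncomputable def sl (L : ℝ) (d : V → ℝ) (a : ℝ) (f : V → ℝ) (m : ℝ) (z : V) : ℝ :=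
  if L * d z < m ∧ m - L * d z < |f z - a| then (if 0 ≤ f z - a then 1 else -1) else 0

lemma abs_sl_le (L : ℝ) (d : V → ℝ) (a : ℝ) (f : V → ℝ) (m : ℝ) (z : V) :
    |sl L d a f m z| ≤ 1 := by
  unfold sl
  split_ifs <;> simp

/-- `sl` vanishes outside the annulus `m/(2L) < d z < m/L`. -/
lemma sl_eq_zero {L : ℝ} {d : V → ℝ} {a : ℝ} {f : V → ℝ} {m : ℝ} {z : V}
    (hf : |f z - a| ≤ L * d z) (h : 2 * L * d z ≤ m ∨ m ≤ L * d z) : sl L d a f m z = 0 := by
  unfold sl
  rw [if_neg]
  rintro ⟨h1, h2⟩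
  rcases h with h | h <;> linarith

/-- (K4) off the two exceptional values `m = L d z` and `m = L d z + |f z - a|`, the map
`m ↦ cl m z` has derivative `sl m z ∈ {-1, 0, 1}`. -/
lemma hasDerivAt_cl {L : ℝ} {d : V → ℝ} {a : ℝ} {f : V → ℝ} {m : ℝ} {z : V}
    (h1 : m ≠ L * d z) (h2 : m ≠ L * d z + |f z - a|) :
    HasDerivAt (fun m => cl L d a f m z) (sl L d a f m z) m := by
  rcases lt_or_gt_of_ne h1 with h | h
  · -- left of the first value: constant `a`
    have e : (fun m => cl L d a f m z) =ᶠ[nhds m] fun _ => a := by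
      filter_upwards [Iio_mem_nhds h] with t ht
      exact cl_eq_const (le_of_lt ht)
    have hs : sl L d a f m z = 0 := by
      unfold sl
      rw [if_neg]
      rintro ⟨h3, -⟩
      linarith
    rw [hs]
    exact (hasDerivAt_const m a).congr_of_eventuallyEq e
  · rcases lt_or_gt_of_ne h2 with h' | h'
    · -- between: `a ± (m - L d z)`
      have hpos : 0 < |f z - a| := by linarith
      by_cases hsg : 0 ≤ f z - a
      · have e : (fun m => cl L d a f m z) =ᶠ[nhds m] fun t => a + (t - L * d z) := by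
          filter_upwards [Ioo_mem_nhds h h'] with t ht
          have hw : wd L t (d z) = t - L * d z := wd_eq (le_of_lt ht.1)
          rw [cl_of_le_sub (by rw [hw]; have := ht.2; rw [abs_of_nonneg hsg] at this; linarith), hw]
        have hs : sl L d a f m z = 1 := by
          unfold sl
          rw [if_pos ⟨h, by linarith⟩, if_pos hsg]
        rw [hs]
        have hd : HasDerivAt (fun t : ℝ => a + (t - L * d z)) 1 m := by
          simpa using ((hasDerivAt_id m).sub_const (L * d z)).const_add a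
        exact hd.congr_of_eventuallyEq e
      · have hsg' : f z - a < 0 := not_le.1 hsg
        have e : (fun m => cl L d a f m z) =ᶠ[nhds m] fun t => a - (t - L * d z) := by
          filter_upwards [Ioo_mem_nhds h h'] with t ht
          have hw : wd L t (d z) = t - L * d z := wd_eq (le_of_lt ht.1)
          rw [cl_of_sub_le (by rw [hw]; have := ht.2; rw [abs_of_neg hsg'] at this; linarith), hw]
        have hs : sl L d a f m z = -1 := by
          unfold sl
          rw [if_pos ⟨h, by linarith⟩, if_neg hsg]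
        rw [hs]
        have hd : HasDerivAt (fun t : ℝ => a - (t - L * d z)) (-1) m := by
          simpa using ((hasDerivAt_id m).sub_const (L * d z)).const_sub a
        exact hd.congr_of_eventuallyEq e
    · -- right of the second value: `f z`
      have e : (fun m => cl L d a f m z) =ᶠ[nhds m] fun _ => f z := by
        filter_upwards [Ioi_mem_nhds h'] with t ht
        refine cl_of_abs_le ?_
        have ht' : L * d z + |f z - a| < t := ht
        have h0 := abs_nonneg (f z - a)
        rw [wd_eq (by linarith)]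
        linarith
      have hs : sl L d a f m z = 0 := by
        unfold sl
        rw [if_neg]
        rintro ⟨-, h3⟩
        linarith
      rw [hs]
      exact (hasDerivAt_const m (f z)).congr_of_eventuallyEq e

/-! ### (K5) constants, locality -/

/-- (K5) adding a constant to the function (and to the centre value). -/
lemma cl_add_const (L : ℝ) (d : V → ℝ) (a : ℝ) (f : V → ℝ) (m c : ℝ) (z : V) :
    cl L d (a + c) (fun z => f z + c) m z = cl L d a f m z + c := by
  unfold cl
  rw [show a + c - wd L m (d z) = (a - wd L m (d z)) + c by ring,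
    show a + c + wd L m (d z) = (a + wd L m (d z)) + c by ring,
    min_add_add_right, max_add_add_right]

/-- (K5) locality: `cl` only sees `f` in `{L d < m}`. -/
lemma cl_congr {L : ℝ} {d : V → ℝ} {a : ℝ} {f g : V → ℝ} {m : ℝ}
    (h : ∀ z, L * d z < m → f z = g z) (z : V) : cl L d a f m z = cl L d a g m z := by
  rcases lt_or_ge (L * d z) m with hz | hz
  · unfold cl
    rw [h z hz]
  · rw [cl_eq_const hz, cl_eq_const hz]

/-- at the centre the clamp is the centre value. -/
lemma cl_center {L : ℝ} {d : V → ℝ} {f : V → ℝ} {m : ℝ} {x0 : V} :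
    cl L d (f x0) f m x0 = f x0 := by
  refine cl_of_abs_le ?_
  simp [wd_nonneg]

/-- idempotence-type statement: clamping again with a smaller width. -/
lemma cl_cl {L : ℝ} {d : V → ℝ} {a : ℝ} {f : V → ℝ} {m m' : ℝ} (h : m' ≤ m) (z : V) :
    cl L d a (cl L d a f m) m' z = cl L d a f m' z := by
  have hw : wd L m' (d z) ≤ wd L m (d z) := wd_mono h
  have h0 := wd_nonneg L m' (d z)
  unfold cl
  rcases le_total (f z) (a + wd L m (d z)) with h1 | h1
  · rw [min_eq_left h1]
    rcases le_total (a - wd L m (d z)) (f z) with h2 | h2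
    · rw [max_eq_right h2]
    · rw [max_eq_left h2]
      rw [min_eq_left (by linarith : a - wd L m (d z) ≤ a + wd L m' (d z)),
        min_eq_left (by linarith : f z ≤ a + wd L m' (d z)),
        max_eq_left (by linarith), max_eq_left (by linarith)]
  · rw [min_eq_right h1, max_eq_right (by linarith : a - wd L m (d z) ≤ a + wd L m (d z)),
      min_eq_right (by linarith : a + wd L m' (d z) ≤ a + wd L m (d z)),
      min_eq_right (by linarith : a + wd L m' (d z) ≤ f z)]

/-! ### (K6) size and energy -/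

/-- (K6) size of the clamp. -/
lemma abs_cl_sub_le {L : ℝ} (d : V → ℝ) (a : ℝ) (f : V → ℝ) (m : ℝ) (z : V) :
    |cl L d a f m z - a| ≤ wd L m (d z) := by
  have h0 := wd_nonneg L m (d z)
  rw [abs_le]
  unfold cl
  constructor
  · have := le_max_left (a - wd L m (d z)) (min (f z) (a + wd L m (d z)))
    linarith
  · have : max (a - wd L m (d z)) (min (f z) (a + wd L m (d z))) ≤ a + wd L m (d z) :=
      max_le (by linarith) (min_le_right _ _)
    linarith

lemma abs_cl_sub_le' {L : ℝ} (hL : 0 ≤ L) {d : V → ℝ} (hd : ∀ z, 0 ≤ d z) (a : ℝ) (f : V → ℝ)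
    {m : ℝ} (hm : 0 ≤ m) (z : V) : |cl L d a f m z - a| ≤ m :=
  (abs_cl_sub_le d a f m z).trans (wd_le hL (hd z) hm)

/-- the clamp is also closer to `a` than `f`. -/
lemma abs_cl_sub_le_f {L : ℝ} (d : V → ℝ) (a : ℝ) (f : V → ℝ) (m : ℝ) (z : V) :
    |cl L d a f m z - a| ≤ |f z - a| := by
  rcases le_total (wd L m (d z)) |f z - a| with h | h
  · exact (abs_cl_sub_le d a f m z).trans h
  · rw [cl_of_abs_le h]

/-- (K6) energy over a finite family of edges: only edges with an endpoint in `{L d < m}`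
contribute, each at most `L ^ 2`. -/
lemma energy_cl_le {E : Type*} (S : Finset E) (s t : E → V) {L : ℝ} (hL : 0 ≤ L) {d : V → ℝ}
    {a : ℝ} {f : V → ℝ} (m : ℝ) (hd : ∀ e ∈ S, |d (s e) - d (t e)| ≤ 1)
    (hf : ∀ e ∈ S, |f (s e) - f (t e)| ≤ L) :
    ∑ e ∈ S, (cl L d a f m (s e) - cl L d a f m (t e)) ^ 2
      ≤ L ^ 2 * ((S.filter fun e => L * d (s e) < m ∨ L * d (t e) < m).card : ℝ) := by
  classical
  have h1 : ∀ e ∈ S, (cl L d a f m (s e) - cl L d a f m (t e)) ^ 2
      ≤ if L * d (s e) < m ∨ L * d (t e) < m then L ^ 2 else 0 := by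
    intro e he
    split_ifs with h
    · have h2 := cl_slope (a := a) hL m (hd e he) (hf e he)
      exact sq_le_sq' (by linarith [(abs_le.1 h2).1]) (abs_le.1 h2).2
    · push Not at h
      rw [cl_eq_const h.1, cl_eq_const h.2]
      simp
  refine (Finset.sum_le_sum h1).trans (le_of_eq ?_)
  rw [← Finset.sum_filter, Finset.sum_const, nsmul_eq_mul, mul_comm]

end Vale.Agent.P159.TM.H316
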