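import Vale.Agent.P159.TM.H316.Free
import Vale.Agent.P159.TM.H426.Pp

/-!
# The lift of the torus law has no faces; RSW for the torus law without a lower bound for one edge
-/

namespace Vale.Agent.P159.TM.H316

open Vale.Agent.P145.FB
open scoped ENNReal

/-- Points with two odd coordinates are never in the lift. -/
theorem face_ppT (N : ℕ) [NeZero N] (b : ℝ) (ξ : ℕ) (hb : 0 < b) (hξ : 0 < ξ) :
    (H426.ppT N b ξ hb hξ).p (fun S => ((1 : ℤ), (1 : ℤ)) ∈ S) = 0 := by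
  rw [H426.ppT_p]
  unfold H426.pQ
  have h : H426.eQ N b ξ hb.le 0 (fun S => ((1 : ℤ), (1 : ℤ)) ∈ S) = 0 := by
    unfold H426.eQ
    have h1 : ∀ (x : Spec.V N → ℤ × ℤ) (om : Finset (Spec.E N)),
        H576.ind (((1 : ℤ), (1 : ℤ)) ∈ H426.Lf (fun v => (x v).1 - (x v).2)
          (H576.plus (Spec.σ2 N b ξ hb.le 0) x om)) = 0 := by
      intro x om
      refine H576.ind_false ?_
      rintro (⟨h, _⟩ | ⟨_, h, _⟩ | ⟨h, _⟩)
      · norm_num at h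
      · norm_num at h
      · norm_num at h
    unfold H576.Ex
    simp only [h1, mul_zero, Finset.sum_const_zero, tsum_zero]
  rw [h, ENNReal.zero_div, ENNReal.toReal_zero]

/-- **RSW for the torus law from easy crossings at the top scales.** -/
theorem rsw_tor (p1 : ℝ) (hp1 : 0 < p1) :
    ∃ c : ℝ, 0 < c ∧ ∀ (N : ℕ) [NeZero N] (b : ℝ) (ξ : ℕ) (hb : 0 < b) (hξ : 0 < ξ) (n : ℤ),
      2000 ≤ n →
      (∀ t, n ≤ 20 * t → t ≤ n → p1 ≤ (H426.ppT N b ξ hb hξ).L t (4 * t)) →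
      c ≤ (H426.ppT N b ξ hb hξ).L (4 * n) n ∧
        ∀ p q : ℤ, c ≤ (H426.ppT N b ξ hb hξ).p (Ann p q n) := by
  obtain ⟨c, h0, h⟩ := rsw_free p1 hp1
  exact ⟨c, h0, fun N _ b ξ hb hξ n hn hE => h _ n hn (face_ppT N b ξ hb hξ) hE⟩

/-- The same with arms from a box to distance `2 t`. -/
theorem rsw_tor_out (p1 : ℝ) (hp1 : 0 < p1) :
    ∃ c : ℝ, 0 < c ∧ ∀ (N : ℕ) [NeZero N] (b : ℝ) (ξ : ℕ) (hb : 0 < b) (hξ : 0 < ξ) (n : ℤ),
      2000 ≤ n →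
      (∀ t, n ≤ 20 * t → t ≤ n → p1 ≤ (H426.ppT N b ξ hb hξ).p (TM.H121.Out t)) →
      c ≤ (H426.ppT N b ξ hb hξ).L (4 * n) n ∧
        ∀ p q : ℤ, c ≤ (H426.ppT N b ξ hb hξ).p (Ann p q n) := by
  obtain ⟨c, h0, h⟩ := rsw_free_out p1 hp1
  exact ⟨c, h0, fun N _ b ξ hb hξ n hn hE => h _ n hn (face_ppT N b ξ hb hξ) hE⟩

end Vale.Agent.P159.TM.H316
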