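import Vale.Agent.P159.TM.H574.Down

/-!
# RSW with easy crossings at the top scales only, without a lower bound for one edge

The lower bound `c1 ≤ P.L 1 0` of `TM/H574/Down.lean` is not needed if the points with two odd
coordinates are never in the random set: either the long crossings of some scale `t ≥ 100` are not
rare, and then no scale below `100` is used, or the near-squares of the scale `100` are crossed with
a probability bounded below, and then the first column is crossed by one edge.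
-/

namespace Vale.Agent.P159.TM.H316

open Vale.Agent.P145.FB Vale.Agent.P159.RSW

/-- The largest scale in `[100, n]` with the property `Q`, if there is one. -/
theorem exists_last' (Q : ℤ → Prop) (n : ℤ) (hn : 100 ≤ n) :
    (∃ r, 100 ≤ r ∧ r ≤ n ∧ Q r ∧ ∀ s, r < s → s ≤ n → ¬ Q s) ∨
      ∀ s, 100 ≤ s → s ≤ n → ¬ Q s := by
  induction n, hn using Int.leInduction with
  | base =>
    by_cases h : Q 100
    · exact Or.inl ⟨100, le_rfl, le_rfl, h, fun s h1 h2 => by omega⟩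
    · refine Or.inr fun s h1 h2 => ?_
      have : s = 100 := by omega
      rw [this]
      exact h
  | succ n hn ih =>
    by_cases h : Q (n + 1)
    · exact Or.inl ⟨n + 1, by omega, le_rfl, h, fun s h1 h2 => by omega⟩
    · rcases ih with ⟨r, h1, h2, h3, h4⟩ | h4
      · refine Or.inl ⟨r, h1, by omega, h3, fun s h5 h6 => ?_⟩
        rcases eq_or_lt_of_le h6 with h7 | h7
        · rw [h7]; exact h
        · exact h4 s h5 (by omega)
      · refine Or.inr fun s h5 h6 => ?_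
        rcases eq_or_lt_of_le h6 with h7 | h7
        · rw [h7]; exact h
        · exact h4 s h5 (by omega)

/-- Step 0 at one scale `t ≥ 100`. -/
theorem sq100 (P : PP) {p1 : ℝ} {t : ℤ} (ht : 100 ≤ t) (h1 : p1 ≤ P.L t (4 * t)) :
    p1 / 4000 ≤ P.L t (t + t / 50) := by
  obtain ⟨k, hk⟩ : ∃ k, k = t / 100 := ⟨_, rfl⟩
  have hk1 : 1 ≤ k := by omega
  have hn : 4 * t < ((800 : ℕ) + 1) * k := by push_cast; omega
  set b := P.L t (t + t / 50) with hb
  have h2 := P.mono (LRc 0 t 0 (4 * t)) (fun S => ∃ i : ℕ, i ≤ 800 ∧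
    (LRc 0 t (i * k) (i * k + (t + 2 * k)) S ∨ BTc 0 t ((i + 1) * k) ((i + 1) * k + t) S))
    (fun S hS => dich hk1 (by omega) hn hS)
  have h3 := ex_le P (fun i S => LRc 0 t (i * k) (i * k + (t + 2 * k)) S ∨
    BTc 0 t ((i + 1) * k) ((i + 1) * k + t) S) (a := 2 * b) 800 (by
      intro i _
      refine (P.or_le _ _).trans ?_
      have a1 : P.p (LRc 0 t (i * k) (i * k + (t + 2 * k))) ≤ b := by
        rw [P.L_eq']
        exact P.L_mono geo (by omega) (by omega) (by omega)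
      have a2 : P.p (BTc 0 t ((i + 1) * k) ((i + 1) * k + t)) ≤ b := by
        rw [P.B_eq']
        exact P.L_mono geo (by omega) (by omega) (by omega)
      have a3 : P.p (fun S => LRc 0 t (i * k) (i * k + (t + 2 * k)) S) =
        P.p (LRc 0 t (i * k) (i * k + (t + 2 * k))) := rfl
      have a4 : P.p (fun S => BTc 0 t ((i + 1) * k) ((i + 1) * k + t) S) =
        P.p (BTc 0 t ((i + 1) * k) ((i + 1) * k + t)) := rfl
      rw [a3, a4]
      linarith)
  have h4 : P.p (LRc 0 t 0 (4 * t)) = P.L t (4 * t) := rfl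
  rw [h4] at h2
  have hb0 : 0 ≤ b := P.L_nonneg _ _
  have h5 := h2.trans h3
  push_cast at h5
  linarith

/-- The near-square constant at all scales `≥ 100`. -/
noncomputable def kF (p0 : ℝ) : ℝ := p0 / 5000 / 4 / 4000

theorem kF_pos {p0 : ℝ} (h : 0 < p0) : 0 < kF p0 := by unfold kF; positivity

/-- **Healing at the top**, scales `≥ 100`, no edge. -/
theorem downF (P : PP) {p0 : ℝ} (h0 : 0 < p0) (n R : ℤ) (hR : 100 ≤ R)
    (hwin : ∀ s, 100 ≤ s → n ≤ 20 * s → s ≤ n → p0 ≤ P.L s (s + s / 50))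
    (heps : ∀ s, R < s → s ≤ n → Eps P s ≤ (kF p0 / 5000) ^ 6) :
    ∀ t, R ≤ t → t ≤ n → kF p0 ≤ P.L t (t + t / 50) := by
  have hD : 0 < kF p0 := kF_pos h0
  have hD0 : kF p0 ≤ p0 := by unfold kF; linarith
  have key : ∀ m : ℕ, ∀ t : ℤ, n - t ≤ m → R ≤ t → t ≤ n → kF p0 ≤ P.L t (t + t / 50) := by
    intro m
    induction m with
    | zero =>
      intro t h1 h2 h3
      push_cast at h1
      exact hD0.trans (hwin t (by omega) (by omega) h3)
    | succ m ih =>
      intro t h1 h2 h3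
      push_cast at h1
      rcases lt_or_ge n (20 * t) with h4 | h4
      · exact hD0.trans (hwin t (by omega) h4.le h3)
      · have hsq : ∀ s, t < s → s ≤ n → kF p0 ≤ P.L s (s + s / 50) :=
          fun s hs1 hs2 => ih s (by omega) (by omega) hs2
        have hW : p0 ≤ P.L (n - n / 50) n := by
          have h4 := hwin (n - n / 50) (by omega) (by omega) (by omega)
          refine h4.trans (P.L_mono geo (by omega) le_rfl (by omega))
        have hp1 : p0 ≤ 1 := hW.trans (P.le_one _)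
        have hA : ARM P (p0 / 5000) n t := by
          rcases lt_or_ge n (2000 * t) with h5 | h5
          · exact H935.l3Stmt2 P p0 n t h0 (by omega) h4 h5 hW
          · have hA' := H574.armAll P (kF p0) t n hD (by omega) hsq
              (fun s hs1 hs2 => heps s (by omega) hs2) (n / 13) (by omega) (by omega)
            refine H574.l2' P p0 (kF p0 / 5000) n t h0 (by positivity) (by omega) h5 hW hA' ?_
              (by linarith)
            refine (heps (n / 13) (by omega) (by omega)).trans ?_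
            have e1 : (kF p0 / 5000) ^ 6 = (kF p0 / 5000) ^ 2 * (kF p0 / 5000) ^ 4 := by ring
            have e2 : p0 * (kF p0 / 5000) ^ 4 / 4000 = p0 / 4000 * (kF p0 / 5000) ^ 4 := by ring
            rw [e1, e2]
            refine mul_le_mul_of_nonneg_right ?_ (by positivity)
            have h6 : (kF p0 / 5000) ^ 2 ≤ kF p0 / 5000 * (1 / 5000) := by
              rw [sq]
              exact mul_le_mul_of_nonneg_left (by linarith) (by positivity)
            linarith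
        have h6 : p0 / 5000 / 4 ≤ P.L t (4 * t) :=
          H574.arm_easy P (by omega) (by omega) (by omega) (by omega) hA
        exact sq100 P (by omega) h6
  intro t h1 h2
  exact key (n - t).toNat t (by omega) h1 h2

/-! ### one column -/

/-- A path across the first column passes one edge with its two ends, if there are no faces. -/
theorem col {S : Set (ℤ × ℤ)} {d : ℤ} (h : LRc 0 100 0 d S)
    (hf : ∀ y : ℤ, 0 ≤ y → y ≤ 2 * d → y % 2 = 1 → ((1 : ℤ), y) ∉ S) :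
    ∃ j : ℤ, 0 ≤ j ∧ j ≤ d ∧ LRc 0 1 j j S := by
  obtain ⟨x, y, hxy, hx, hy⟩ := h
  obtain ⟨z, w, hz, hw, hzw, -, -⟩ := hxy.exit (f := fun u => u.1) nn_fst (c := 0) (d := 2)
    (by norm_num) (by show x.1 ≤ 0; omega) (by show 2 ≤ y.1; omega)
  set T : Set (ℤ × ℤ) := S ∩ rc 0 100 0 d ∩ {u | 0 ≤ u.1 ∧ u.1 ≤ 2} with hT
  have hTf : ∀ y : ℤ, ((1 : ℤ), y) ∈ T → y % 2 = 0 := by
    rintro y ⟨⟨h1, h2⟩, _⟩
    rw [mem_rc] at h2
    by_contra hc
    exact hf y (by simp only at h2; omega) (by simp only at h2; omega) (by omega) h1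
  have key : w.1 = 0 ∨ (w.1 = 1 ∧ ((0 : ℤ), w.2) ∈ T) ∨
      ∃ y : ℤ, ((0 : ℤ), y) ∈ T ∧ ((1 : ℤ), y) ∈ T ∧ ((2 : ℤ), y) ∈ T := by
    refine NC.ind (fun w => w.1 = 0 ∨ (w.1 = 1 ∧ ((0 : ℤ), w.2) ∈ T) ∨
      ∃ y : ℤ, ((0 : ℤ), y) ∈ T ∧ ((1 : ℤ), y) ∈ T ∧ ((2 : ℤ), y) ∈ T) (Or.inl hz) ?_ hzw
    rintro ⟨u1, u2⟩ ⟨v1, v2⟩ hu huv hv hP
    have huT : ((u1, u2) : ℤ × ℤ) ∈ T := hu.right_mem
    have hv1 : 0 ≤ v1 ∧ v1 ≤ 2 := hv.2
    unfold NN at huv
    simp only at huv hP ⊢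
    rcases hP with h1 | ⟨h1, h2⟩ | h1
    · subst h1
      rcases huv with ⟨h3, h4⟩ | ⟨h3, h4⟩
      · subst h3
        rcases h4 with h4 | h4
        · right; left
          exact ⟨by omega, huT⟩
        · omega
      · left; exact h3
    · subst h1
      rcases huv with ⟨h3, h4⟩ | ⟨h3, h4⟩
      · subst h3
        rcases h4 with h4 | h4
        · right; right
          refine ⟨v2, h2, huT, ?_⟩
          have : v1 = 2 := by omega
          rw [← this]
          exact hv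
        · left; omega
      · exfalso
        have h5 := hTf _ huT
        subst h3
        have h6 := hTf _ hv
        omega
    · exact Or.inr (Or.inr h1)
  have hw2 : w.1 = 2 := hw
  obtain ⟨y, h0, h1, h2⟩ : ∃ y : ℤ, ((0 : ℤ), y) ∈ T ∧ ((1 : ℤ), y) ∈ T ∧ ((2 : ℤ), y) ∈ T := by
    rcases key with h | ⟨h, _⟩ | h
    · omega
    · omega
    · exact h
  have hy2 := hTf y h1
  have hb := h0.1.2
  rw [mem_rc] at hb
  simp only at hb
  obtain ⟨j, hj⟩ : ∃ j : ℤ, y = 2 * j := ⟨y / 2, by omega⟩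
  subst hj
  refine ⟨j, by omega, by omega, (0, 2 * j), (2, 2 * j), ?_, by simp, by simp⟩
  have m0 : ((0 : ℤ), 2 * j) ∈ S ∩ rc 0 1 j j := ⟨h0.1.1, by rw [mem_rc]; simp⟩
  have m1 : ((1 : ℤ), 2 * j) ∈ S ∩ rc 0 1 j j := ⟨h1.1.1, by rw [mem_rc]; simp⟩
  have m2 : ((2 : ℤ), 2 * j) ∈ S ∩ rc 0 1 j j := ⟨h2.1.1, by rw [mem_rc]; simp⟩
  have s1 : NN ((0 : ℤ), 2 * j) ((1 : ℤ), 2 * j) := Or.inl ⟨rfl, Or.inl (by norm_num)⟩
  have s2 : NN ((1 : ℤ), 2 * j) ((2 : ℤ), 2 * j) := Or.inl ⟨rfl, Or.inl (by norm_num)⟩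
  exact ((NC.refl m0).tail s1 m1).tail s2 m2

theorem IL_face : IL (fun S : Set (ℤ × ℤ) => ((1 : ℤ), (1 : ℤ)) ∈ S) := by
  refine ⟨fun S T h hS => h hS, 1, fun S T h hS => ?_⟩
  exact (h (1, 1) (by norm_num) (by norm_num)).1 hS

/-- One edge from a crossing of the scale 100. -/
theorem edge_of (P : PP) (hf : P.p (fun S => ((1 : ℤ), (1 : ℤ)) ∈ S) = 0) :
    P.L 100 102 ≤ 103 * P.L 1 0 := by
  have hface : ∀ j : ℕ, P.p (fun S => ((1 : ℤ), 2 * (j : ℤ) + 1) ∈ S) ≤ 0 := by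
    intro j
    rw [← hf, ← P.shift 0 j _ IL_face]
    refine P.mono _ _ fun S hS => ?_
    show ((1 : ℤ) + 2 * 0, (1 : ℤ) + 2 * (j : ℤ)) ∈ S
    have e : ((1 : ℤ) + 2 * 0, (1 : ℤ) + 2 * (j : ℤ)) = (1, 2 * (j : ℤ) + 1) := by
      ext <;> simp [add_comm]
    rw [e]
    exact hS
  have h1 : P.p (LRc 0 100 0 102) ≤ P.p (fun S =>
      (∃ j : ℕ, j ≤ 102 ∧ ((1 : ℤ), 2 * (j : ℤ) + 1) ∈ S) ∨
        ∃ j : ℕ, j ≤ 102 ∧ LRc 0 1 j j S) := by
    refine P.mono _ _ fun S hS => ?_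
    by_cases hc : ∃ j : ℕ, j ≤ 102 ∧ ((1 : ℤ), 2 * (j : ℤ) + 1) ∈ S
    · exact Or.inl hc
    · right
      obtain ⟨j, hj0, hj, hL⟩ := col hS (by
        intro y h1 h2 h3 h4
        refine hc ⟨(y / 2).toNat, by omega, ?_⟩
        have e : (2 * (((y / 2).toNat : ℕ) : ℤ) + 1) = y := by omega
        rw [e]
        exact h4)
      refine ⟨j.toNat, by omega, ?_⟩
      have e : ((j.toNat : ℕ) : ℤ) = j := by omega
      rw [e]
      exact hL
  have h2 := ex_le P (fun (j : ℕ) S => ((1 : ℤ), 2 * (j : ℤ) + 1) ∈ S) (a := 0) 102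
    (fun j _ => hface j)
  have h3 := ex_le P (fun (j : ℕ) S => LRc 0 1 j j S) (a := P.L 1 0) 102 (fun j _ => by
    have := P.L_eq' 0 1 (j : ℤ) j
    simp only [sub_zero, sub_self] at this
    exact this.le)
  have h4 : P.p (LRc 0 100 0 102) = P.L 100 102 := rfl
  rw [← h4]
  refine (h1.trans (P.or_le _ _)).trans ((add_le_add h2 h3).trans ?_)
  push_cast
  linarith

/-! ### the theorem -/

/-- **RSW from near-squares at the top scales, no edge.** -/
theorem rsw_sq_free (p0 : ℝ) (h0 : 0 < p0) :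
    ∃ c : ℝ, 0 < c ∧ ∀ (P : PP) (n : ℤ), 100 ≤ n →
      P.p (fun S => ((1 : ℤ), (1 : ℤ)) ∈ S) = 0 →
      (∀ s, n ≤ 20 * s → s ≤ n → p0 ≤ P.L s (s + s / 50)) →
      c ≤ P.L (4 * n) n ∧ ∀ p q : ℤ, c ≤ P.p (Ann p q n) := by
  obtain ⟨k, hk⟩ : ∃ k : ℝ, k = kF p0 := ⟨_, rfl⟩
  have hk0 : 0 < k := hk ▸ kF_pos h0
  obtain ⟨cB, hcB, HB⟩ := H574.rsw_sq_top p0 (k / 103) h0 (by positivity)
  obtain ⟨l, hl⟩ : ∃ l : ℝ, l = (k / 5000) ^ 6 * (k * (k / 5000) ^ 6) ^ 19 := ⟨_, rfl⟩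
  have hl0 : 0 < l := by rw [hl]; positivity
  obtain ⟨E, hE⟩ : ∃ E : ℝ, E = (k / 5000) ^ 2 * l ^ 4 := ⟨_, rfl⟩
  have hE0 : 0 < E := by rw [hE]; positivity
  obtain ⟨m, hm⟩ : ∃ m : ℝ, m = min 1 (min (l * (k * l) ^ 10000) (E * (k * E) ^ 19)) :=
    ⟨_, rfl⟩
  have hm0 : 0 < m := by rw [hm]; positivity
  have hm1 : m ≤ 1 := by rw [hm]; exact min_le_left _ _
  refine ⟨min cB (m ^ 4), by positivity, fun P n hn hf hwin => ?_⟩
  rcases exists_last' (fun t => (k / 5000) ^ 6 < Eps P t) n hn with ⟨r, hr, hrn, hlast, hall⟩ | hall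
  · have heps : ∀ s, r < s → s ≤ n → Eps P s ≤ (k / 5000) ^ 6 :=
      fun s hs1 hs2 => not_lt.1 (hall s hs1 hs2)
    have hsq : ∀ t, r ≤ t → t ≤ n → k ≤ P.L t (t + t / 50) := by
      rw [hk] at heps ⊢
      exact downF P h0 n r hr (fun s _ hs1 hs2 => hwin s hs1 hs2) heps
    have hL : l ≤ P.L (4 * r) r := by
      rw [hl]
      exact l5core P k ((k / 5000) ^ 6) r hk0.le (by positivity) (by omega) (hsq r le_rfl hrn)
        hlast.le
    have key : m ≤ P.L (4 * n) n := by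
      rw [hm]
      rcases lt_or_ge n (5000 * r) with hlt | hge
      · exact (min_le_right _ _).trans ((min_le_left _ _).trans
          (L_near P hk0 hl0 (by omega) hrn hlt (hsq r le_rfl hrn) hL))
      · have hA := H574.armAll P k r n hk0 (by omega) (fun s hs1 hs2 => hsq s hs1.le hs2)
          heps (n - 4 * r) (by omega) (by omega)
        have hC : l ^ 4 ≤ P.p (Ann 0 0 r) := P.Ann_ge 0 0 hl0.le hL
        have h6 := l4 P (k / 5000) (l ^ 4) (n - 4 * r) r r (by positivity)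
          (by positivity) (by omega) le_rfl (by omega) (by omega) hA hC
        rw [← hE] at h6
        have h7 : E ≤ Eps P n := by
          refine h6.trans (P.L_mono geo (by omega) (by omega) (by omega))
        exact (min_le_right _ _).trans ((min_le_right _ _).trans
          (l5core P k E n hk0.le hE0.le (by omega) (hsq n hrn le_rfl) h7))
    have hm4 : m ^ 4 ≤ m := by
      calc m ^ 4 ≤ m ^ 1 := pow_le_pow_of_le_one hm0.le hm1 (by norm_num)
        _ = m := pow_one _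
    exact ⟨(min_le_right _ _).trans (hm4.trans key),
      fun p q => (min_le_right _ _).trans (P.Ann_ge p q hm0.le key)⟩
  · have hsq : k ≤ P.L 100 102 := by
      have h1 := downF P h0 n 100 le_rfl (fun s _ hs1 hs2 => hwin s hs1 hs2)
        (fun s hs1 hs2 => by
          have := not_lt.1 (hall s hs1.le hs2)
          rwa [hk] at this) 100 le_rfl hn
      rw [hk]
      norm_num at h1
      exact h1
    have hedge := edge_of P hf
    have h2 := HB P n (by omega) (by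
      rw [div_le_iff₀ (by norm_num)]
      linarith) hwin
    exact ⟨(min_le_left _ _).trans h2.1, fun p q => (min_le_left _ _).trans (h2.2 p q)⟩

/-- **RSW from easy crossings at the top scales `[n / 20, n]`, no edge.** -/
theorem rsw_free (p1 : ℝ) (hp1 : 0 < p1) :
    ∃ c : ℝ, 0 < c ∧ ∀ (P : PP) (n : ℤ), 2000 ≤ n →
      P.p (fun S => ((1 : ℤ), (1 : ℤ)) ∈ S) = 0 →
      (∀ t, n ≤ 20 * t → t ≤ n → p1 ≤ P.L t (4 * t)) →
      c ≤ P.L (4 * n) n ∧ ∀ p q : ℤ, c ≤ P.p (Ann p q n) := by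
  obtain ⟨c, h0, h⟩ := rsw_sq_free (p1 / 4000) (by positivity)
  exact ⟨c, h0, fun P n hn hf hE => h P n (by omega) hf
    (fun s hs1 hs2 => sq100 P (by omega) (hE s hs1 hs2))⟩

/-- The same with arms from a box to distance `2 t`. -/
theorem rsw_free_out (p1 : ℝ) (hp1 : 0 < p1) :
    ∃ c : ℝ, 0 < c ∧ ∀ (P : PP) (n : ℤ), 2000 ≤ n →
      P.p (fun S => ((1 : ℤ), (1 : ℤ)) ∈ S) = 0 →
      (∀ t, n ≤ 20 * t → t ≤ n → p1 ≤ P.p (TM.H121.Out t)) →
      c ≤ P.L (4 * n) n ∧ ∀ p q : ℤ, c ≤ P.p (Ann p q n) := by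
  obtain ⟨c, h0, h⟩ := rsw_free (p1 / 4) (by positivity)
  exact ⟨c, h0, fun P n hn hf hE => h P n hn hf
    (fun s hs1 hs2 => TM.H121.easy_of_out P (by omega) (hE s hs1 hs2))⟩

/-- The same with arms from a box to its translate. -/
theorem rsw_free_tr (p1 : ℝ) (hp1 : 0 < p1) :
    ∃ c : ℝ, 0 < c ∧ ∀ (P : PP) (n : ℤ), 2000 ≤ n →
      P.p (fun S => ((1 : ℤ), (1 : ℤ)) ∈ S) = 0 →
      (∀ t, n ≤ 20 * t → t ≤ n → p1 ≤ P.p (TM.H121.Tr t)) →
      c ≤ P.L (4 * n) n ∧ ∀ p q : ℤ, c ≤ P.p (Ann p q n) := by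
  obtain ⟨c, h0, h⟩ := rsw_free (p1 / 4) (by positivity)
  exact ⟨c, h0, fun P n hn hf hE => h P n hn hf
    (fun s hs1 hs2 => TM.H121.easy_of_tr P (by omega) (hE s hs1 hs2))⟩

end Vale.Agent.P159.TM.H316
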